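import Vale.Agent.P096.CS.StrongDefs
import Vale.Agent.P096.Bd8.B20
import Vale.Agent.P096.Bd8.B19
import Vale.Agent.P096.H308.Main

/-!
# P096: the conjugating unitary inside an injective ambient algebra

A norm one projection onto a von Neumann algebra `P` is a module map over the projections of `P`.
Applying it to a unitary conjugating `M` onto `N` and taking the polar part gives a unitary of `P`
with the same action on `M`.
-/

namespace Vale.Agent.N096

open Vale.Agent.P096.Strong Vale.Agent.P096.H308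

universe u

variable {H : Type u} [NormedAddCommGroup H] [InnerProductSpace ℂ H] [CompleteSpace H]

/-- the distance of the unit balls in the Hausdorff metric -/
noncomputable abbrev hd' (M N : VonNeumannAlgebra H) : ℝ :=
  Metric.hausdorffDist ((M : Set (H →L[ℂ] H)) ∩ Metric.closedBall 0 1)
    ((N : Set (H →L[ℂ] H)) ∩ Metric.closedBall 0 1)

theorem ball_eq (M : VonNeumannAlgebra H) :
    (M : Set (H →L[ℂ] H)) ∩ Metric.closedBall 0 1 = ball M := by
  ext x; simp [ball]

theorem hd_eq (M N : VonNeumannAlgebra H) : hd' M N = kkDist M N := by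
  have hb : ∀ M : VonNeumannAlgebra H, Bornology.IsBounded (ball M) := fun M =>
    ball_eq M ▸ Metric.isBounded_closedBall.subset Set.inter_subset_right
  have hfin : Metric.hausdorffEDist (ball M) (ball N) ≠ ⊤ :=
    Metric.hausdorffEDist_ne_top_of_nonempty_of_bounded ⟨0, zero_mem_ball M⟩ ⟨0, zero_mem_ball N⟩
      (hb M) (hb N)
  rw [hd', ball_eq, ball_eq]
  refine le_antisymm (le_of_forall_gt_imp_ge_of_dense fun δ hδ => ?_)
    (le_of_forall_gt_imp_ge_of_dense fun δ hδ => kkDist_le_of_near ⟨fun x hx => ?_, fun y hy => ?_⟩)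
  · have h := near_of_lt hδ
    refine Metric.hausdorffDist_le_of_mem_dist ((kkDist_nonneg M N).trans hδ.le)
      (fun x hx => ?_) (fun y hy => ?_)
    · obtain ⟨y, hy, hxy⟩ := h.1 x hx
      exact ⟨y, hy, by rwa [dist_eq_norm]⟩
    · obtain ⟨x, hx, hxy⟩ := h.2 y hy
      exact ⟨x, hx, by rwa [dist_comm, dist_eq_norm]⟩
  · obtain ⟨y, hy, hxy⟩ := Metric.exists_dist_lt_of_hausdorffDist_lt hx hδ hfin
    exact ⟨y, hy, by rw [← dist_eq_norm]; exact hxy.le⟩
  · obtain ⟨x, hx, hxy⟩ := Metric.exists_dist_lt_of_hausdorffDist_lt' hy hδ hfin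
    exact ⟨x, hx, by rw [← dist_eq_norm]; exact hxy.le⟩

theorem strong : ∀ ε : ℝ, 0 < ε → ∃ δ : ℝ, 0 < δ ∧
    ∀ (H : Type u) [NormedAddCommGroup H] [InnerProductSpace ℂ H] [CompleteSpace H]
      (M N : VonNeumannAlgebra H), kkDist M N < δ → ConjWithin M N ε := by
  obtain ⟨C, d, hC, hd, h⟩ := Vale.Agent.P096.CS.finTr.{u}
  exact Vale.Agent.P096.CS.full_of_T3 fun ε hε => Vale.Agent.P096.III.linCS hC hd h hε

section tomiyama

variable {A : Type*} [CStarAlgebra A] {P : Set A} {E : A → A}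

theorem corner_zero (hadd : ∀ x y, E (x + y) = E x + E y) (hn : ∀ x, ‖E x‖ ≤ ‖x‖)
    (hE : ∀ x, E x ∈ P) (hid : ∀ x ∈ P, ∀ t : ℝ, E (t • x) = t • x)
    (hmul : ∀ x ∈ P, ∀ y ∈ P, x * y ∈ P) {e f : A} (he : e ∈ P) (es : star e = e) (ee : e * e = e)
    (fs : star f = f) (fe : f * e = 0) (x : A) : e * E (f * x) = 0 := by
  set a := e * E (f * x) with ha
  have aP : a ∈ P := hmul _ he _ (hE _)
  have ea : e * a = a := by rw [ha, ← mul_assoc, ee]
  have en : ‖e‖ ≤ 1 := by
    have h : ‖e‖ * ‖e‖ = ‖e‖ := by rw [← CStarRing.norm_star_mul_self, es, ee]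
    nlinarith [norm_nonneg e]
  have o1 : star (f * x) * a = 0 := by
    rw [star_mul, fs, ← ea, mul_assoc, ← mul_assoc f, fe, zero_mul, mul_zero]
  have o2 : star a * (f * x) = 0 := by simpa using congrArg star o1
  have key : ∀ t : ℝ, 0 ≤ t → 2 * t * ‖a‖ ^ 2 ≤ ‖f * x‖ ^ 2 := by
    intro t ht
    have h1 : (1 + t) • a = e * E (f * x + t • a) := by
      rw [hadd, hid a aP, mul_add, mul_smul_comm, ea, ← ha, add_smul, one_smul]
    have h2 : (1 + t) * ‖a‖ ≤ ‖f * x + t • a‖ := by
      have h3 := norm_mul_le e (E (f * x + t • a))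
      rw [← h1, norm_smul, Real.norm_of_nonneg (by linarith)] at h3
      have h4 := hn (f * x + t • a)
      nlinarith [norm_nonneg (E (f * x + t • a))]
    have h5 : star (f * x + t • a) * (f * x + t • a) =
        star (f * x) * (f * x) + (t * t) • (star a * a) := by
      rw [star_add, star_smul, star_trivial t, add_mul, mul_add, mul_add, mul_smul_comm, o1,
        smul_mul_assoc, o2, smul_mul_assoc, mul_smul_comm, smul_smul]
      simp
    have h6 : ‖f * x + t • a‖ * ‖f * x + t • a‖ ≤ ‖f * x‖ * ‖f * x‖ + t * t * (‖a‖ * ‖a‖) := by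
      rw [← CStarRing.norm_star_mul_self, h5]
      refine (norm_add_le _ _).trans (le_of_eq ?_)
      rw [norm_smul, CStarRing.norm_star_mul_self, CStarRing.norm_star_mul_self,
        Real.norm_of_nonneg (by positivity)]
    have h7 := mul_self_le_mul_self (by positivity) h2
    nlinarith [sq_nonneg ‖a‖]
  by_contra h0
  have hp : 0 < ‖a‖ ^ 2 := by positivity
  have h8 := key ((‖f * x‖ ^ 2 + 1) / ‖a‖ ^ 2) (by positivity)
  rw [mul_assoc, div_mul_cancel₀ _ hp.ne'] at h8
  nlinarith [sq_nonneg ‖f * x‖]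

theorem left_module (hadd : ∀ x y, E (x + y) = E x + E y) (hn : ∀ x, ‖E x‖ ≤ ‖x‖)
    (hE : ∀ x, E x ∈ P) (hid : ∀ x ∈ P, ∀ t : ℝ, E (t • x) = t • x)
    (hmul : ∀ x ∈ P, ∀ y ∈ P, x * y ∈ P) {e : A} (he : e ∈ P) (he' : 1 - e ∈ P) (es : star e = e)
    (ee : e * e = e) (x : A) : E (e * x) = e * E x := by
  have fs : star (1 - e) = 1 - e := by rw [star_sub, star_one, es]
  have fe : (1 - e) * e = 0 := by rw [sub_mul, one_mul, ee, sub_self]
  have ef : e * (1 - e) = 0 := by rw [mul_sub, mul_one, ee, sub_self]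
  have ff : (1 - e) * (1 - e) = 1 - e := by rw [mul_sub, mul_one, fe, sub_zero]
  have h1 := corner_zero hadd hn hE hid hmul he es ee fs fe x
  have h2 := corner_zero hadd hn hE hid hmul he' fs ff es ef x
  have h3 : E x = E (e * x) + E ((1 - e) * x) := by
    rw [← hadd, ← add_mul, add_sub_cancel, one_mul]
  rw [sub_mul, one_mul, sub_eq_zero] at h2
  rw [h3, mul_add, h1, add_zero, ← h2]

end tomiyama

/-- a unitary that conjugates `M` into `P` can be moved into an injective `P` -/
theorem move_unitary {M P : VonNeumannAlgebra H} (hM : M ≤ P)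
    (E : (H →L[ℂ] H) →L[ℂ] (H →L[ℂ] H)) (hn : ‖E‖ ≤ 1) (hE : ∀ x, E x ∈ P)
    (hid : ∀ x ∈ P, E x = x) {u : H →L[ℂ] H} (hu : u ∈ unitary (H →L[ℂ] H)) {r : ℝ} (hr : r < 1)
    (nu : ‖u - 1‖ ≤ r) (hc : ∀ x ∈ M, u * x * star u ∈ P) :
    ∃ w ∈ unitary (H →L[ℂ] H), w ∈ P ∧ ‖w - 1‖ ≤ 2 * r ∧
      ∀ x ∈ M, w * x * star w = u * x * star u := by
  have u1 := Unitary.star_mul_self_of_mem hu
  have hn' : ∀ x, ‖E x‖ ≤ ‖x‖ := fun x => (E.le_opNorm x).trans (by
    nlinarith [norm_nonneg x])
  have sm : ∀ x ∈ P, ∀ t : ℝ, t • x ∈ P := fun x hx t => smul_mem_vn P (t : ℂ) hx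
  have hl : ∀ e ∈ P, star e = e → e * e = e → ∀ x, E (e * x) = e * E x := fun e he es ee x =>
    left_module (P := (P : Set (H →L[ℂ] H))) E.map_add hn' hE (fun x hx t => hid _ (sm x hx t))
      (fun x hx y hy => mul_mem hx hy) he (sub_mem (one_mem P) he) es ee x
  have hr' : ∀ e ∈ P, star e = e → e * e = e → ∀ x, E (x * e) = E x * e := fun e he es ee x => by
    have h := left_module (P := (P : Set (H →L[ℂ] H))) (E := fun x => star (E (star x)))
      (fun x y => by rw [star_add, map_add, star_add])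
      (fun x => by rw [norm_star]; exact (hn' _).trans (norm_star x).le)
      (fun x => star_mem (hE _))
      (fun x hx t => by rw [hid _ (star_mem (sm x hx t)), star_star])
      (fun x hx y hy => mul_mem hx hy) he (sub_mem (one_mem P) he) es ee (star x)
    simpa [star_mul, es] using congrArg star h
  have ny : ‖E u - 1‖ ≤ r := by
    rw [← hid 1 (one_mem P), ← map_sub]
    exact (hn' _).trans nu
  obtain ⟨w, w1, w2, nw, hw⟩ := Vale.Agent.P096.exists_unitary_part (E u) r hr ny
  have wP : w ∈ P := by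
    rw [← VonNeumannAlgebra.commutant_commutant P, VonNeumannAlgebra.mem_commutant_iff]
    intro a ha
    exact (hw a a (VonNeumannAlgebra.mem_commutant_iff.1 ha _ (hE u))
      (VonNeumannAlgebra.mem_commutant_iff.1 (star_mem ha) _ (hE u))).symm
  have hp : ∀ p, Vale.Agent.P082.VN.IsPr M p → p * (star u * w) = star u * w * p := by
    intro p hp
    have qs : star (u * p * star u) = u * p * star u := by
      rw [star_mul, star_mul, star_star, hp.sa, mul_assoc]
    have up : u * p * star u * u = u * p := by rw [mul_assoc, u1, mul_one]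
    have qq : u * p * star u * (u * p * star u) = u * p * star u := by
      rw [← mul_assoc, ← mul_assoc, up, mul_assoc u, hp.idem]
    have h1 : E u * p = u * p * star u * E u := by
      rw [← hr' p (hM hp.mem) hp.sa hp.idem, ← hl _ (hc p hp.mem) qs qq, up]
    have h2 := hw p _ h1 (by rw [hp.sa, qs]; exact h1)
    rw [mul_assoc, h2]
    simp only [← mul_assoc, u1, one_mul]
  have hs : ∀ s ∈ M, star s = s → s * (star u * w) = star u * w * s := fun s hs ss =>
    Vale.Agent.P082.VN.spectral_comm (g := 1) ⟨one_mem M, one_mul _, star_one _⟩ hs ss (one_mul _)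
      (one_mul _) (mul_one _) fun p h _ => hp p h
  refine ⟨w, ⟨w1, w2⟩, wP, nw, fun x hx => ?_⟩
  have hx' : x * (star u * w) = star u * w * x := by
    have a1 := hs (x + star x) (add_mem hx (star_mem hx)) (by rw [star_add, star_star, add_comm])
    have a2 := hs (Complex.I • (x - star x)) (smul_mem_vn M _ (sub_mem hx (star_mem hx))) (by
      rw [star_smul, star_sub, star_star, Complex.star_def, Complex.conj_I, neg_smul, ← smul_neg,
        neg_sub])
    rw [smul_mul_assoc, mul_smul_comm] at a2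
    have a3 := smul_right_injective _ Complex.I_ne_zero a2
    rw [add_mul, mul_add] at a1
    rw [sub_mul, mul_sub] at a3
    have a4 : (2 : ℂ) • (x * (star u * w)) = (2 : ℂ) • (star u * w * x) := by
      rw [two_smul, two_smul]
      calc _ = (x * (star u * w) + star x * (star u * w)) +
            (x * (star u * w) - star x * (star u * w)) := by abel
        _ = _ := by rw [a1, a3]; abel
    exact smul_right_injective _ two_ne_zero a4
  calc w * x * star w = u * (star u * w * x) * star w := by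
        simp only [← mul_assoc, Unitary.mul_star_self_of_mem hu, one_mul]
    _ = u * x * star u * (w * star w) := by rw [← hx']; simp only [mul_assoc]
    _ = _ := by rw [w2, mul_one]

theorem ambient : ∃ C : ℝ, 1 ≤ C ∧
    ∀ (H : Type u) [NormedAddCommGroup H] [InnerProductSpace ℂ H] [CompleteSpace H]
      (M N P : VonNeumannAlgebra H), M ≤ P → N ≤ P →
      (∃ E : (H →L[ℂ] H) →L[ℂ] (H →L[ℂ] H), ‖E‖ ≤ 1 ∧ (∀ x, E x ∈ P) ∧ ∀ x ∈ P, E x = x) →
      C * hd' M N ≤ 1 → ∃ u ∈ unitary (H →L[ℂ] H), u ∈ P ∧ ‖u - 1‖ ≤ C * hd' M N ∧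
        (fun x => u * x * star u) '' (M : Set (H →L[ℂ] H)) = (N : Set (H →L[ℂ] H)) := by
  obtain ⟨C, hC, h⟩ := linear_of_strong strong.{u}
  refine ⟨2 * C, by linarith, fun H _ _ _ M N P hM hN ⟨E, hn, hE, hid⟩ hd => ?_⟩
  rw [hd_eq] at hd ⊢
  have h0 : 0 ≤ C * kkDist M N := mul_nonneg (by linarith) (kkDist_nonneg M N)
  obtain ⟨u, hu, nu, e⟩ := h H M N (by linarith)
  obtain ⟨w, hw, wP, nw, ew⟩ := move_unitary hM E hn hE hid hu (r := C * kkDist M N) (by linarith)
    nu fun x hx => hN (show _ ∈ (N : Set (H →L[ℂ] H)) from e ▸ ⟨x, hx, rfl⟩)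
  exact ⟨w, hw, wP, by linarith, (Set.image_congr ew).trans e⟩

end Vale.Agent.N096
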