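import Mathlib.Analysis.VonNeumannAlgebra.Basic
import Mathlib.Analysis.InnerProductSpace.Adjoint
import Mathlib.Topology.MetricSpace.HausdorffDistance

/-!
# P096: definitions for the ambient forms of the Kadison-Kastler problem
-/

namespace Vale.Agent.N096

open scoped InnerProductSpace

universe u

variable {H : Type u} [NormedAddCommGroup H] [InnerProductSpace ℂ H] [CompleteSpace H]

/-- the Kadison-Kastler distance: the Hausdorff distance of the closed unit balls -/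
noncomputable def kk (M N : VonNeumannAlgebra H) : ℝ :=
  Metric.hausdorffDist ((M : Set (H →L[ℂ] H)) ∩ Metric.closedBall 0 1)
    ((N : Set (H →L[ℂ] H)) ∩ Metric.closedBall 0 1)

/-- `u` is unitary and `u M u* = N` -/
def Conj (u : H →L[ℂ] H) (M N : VonNeumannAlgebra H) : Prop :=
  u ∈ unitary (H →L[ℂ] H) ∧
    (fun x => u * x * star u) '' (M : Set (H →L[ℂ] H)) = (N : Set (H →L[ℂ] H))

/-- `P` is injective: the range of a linear projection of norm at most one on `B(H)` -/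
def IsInjective (P : VonNeumannAlgebra H) : Prop :=
  ∃ E : (H →L[ℂ] H) → (H →L[ℂ] H), IsLinearMap ℂ E ∧ (∀ x, ‖E x‖ ≤ ‖x‖) ∧ (∀ x, E x ∈ P) ∧
    ∀ x ∈ P, E x = x

/-- `M` has trivial centre, infinite dimension and a separating unit trace vector -/
def IsIIOne (M : VonNeumannAlgebra H) : Prop :=
  (∀ z ∈ M, (∀ x ∈ M, x * z = z * x) → ∃ c : ℂ, z = c • 1) ∧
  (∃ v : ℕ → H →L[ℂ] H, (∀ n, v n ∈ M) ∧ LinearIndependent ℂ v) ∧
  ∃ Ω : H, ‖Ω‖ = 1 ∧ (∀ x ∈ M, x Ω = 0 → x = 0) ∧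
    ∀ x ∈ M, ∀ y ∈ M, ⟪Ω, (x * y) Ω⟫_ℂ = ⟪Ω, (y * x) Ω⟫_ℂ

/-- `s` has an inverse `t` in `B(H)` with `s N t ⊆ M` -/
def SimInto (s : H →L[ℂ] H) (N M : VonNeumannAlgebra H) : Prop :=
  ∃ t : H →L[ℂ] H, s * t = 1 ∧ t * s = 1 ∧ ∀ x ∈ N, s * x * t ∈ M

/-- some unitary `u` has `u M u* = N` and `‖u - 1‖ < ε` -/
def ConjLt (M N : VonNeumannAlgebra H) (ε : ℝ) : Prop := ∃ u, Conj u M N ∧ ‖u - 1‖ < ε

/-- some unitary `u` in `P` has `u M u* = N` and `‖u - 1‖ ≤ r` -/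
def ConjIn (P M N : VonNeumannAlgebra H) (r : ℝ) : Prop := ∃ u ∈ P, Conj u M N ∧ ‖u - 1‖ ≤ r

/-- no unitary `u` in `P` has `u M u* = N`, and no invertible `s` in `P` has `s N s⁻¹ ⊆ M` -/
def NoConjIn (P M N : VonNeumannAlgebra H) : Prop :=
  (∀ u ∈ P, ¬ Conj u M N) ∧ ∀ s ∈ P, ¬ SimInto s N M

end Vale.Agent.N096
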