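import Vale.Agent.N096.Free
import Vale.Agent.P096.H308.Main
import Mathlib.Analysis.InnerProductSpace.l2Space

/-!
# P096: close algebras that are not conjugate inside a common ambient algebra

`F` is the free group on countably many generators, `K = ℓ²(F)`, `H = ℓ²(F; K)`.  `P` is the
commutant of the left translations of `H`, `M` is generated by `g ↦ λ(g) ⊗ r(g)` and `N` by
`g ↦ π(g) ⊗ r(g)` with `π` a small deformation of `λ`.
-/

namespace Vale.Agent.N096

open scoped InnerProductSpace ENNReal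
open Vale.Agent.P096.H308 (conjVN mem_conjVN)

section wp

variable {ι K : Type} [NormedAddCommGroup K] [InnerProductSpace ℂ K] [CompleteSpace K]

/-- square summable families -/
abbrev L2 (ι K : Type) [NormedAddCommGroup K] := lp (fun _ : ι => K) 2

omit [InnerProductSpace ℂ K] [CompleteSpace K] in
theorem memlp_of_le (σ : ι ≃ ι) (f : L2 ι K) (g : ι → K) (c : ℝ)
    (h : ∀ t, ‖g t‖ ≤ c * ‖f (σ t)‖) : Memℓp g 2 := by
  have h0 : Memℓp (fun t => f (σ t)) 2 := by
    rw [memℓp_gen_iff (by norm_num)]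
    exact (σ.summable_iff (f := fun t => ‖f t‖ ^ (2 : ℝ≥0∞).toReal)).2
      ((lp.memℓp f).summable (by norm_num))
  have h1 : Memℓp (fun t => ‖f (σ t)‖) 2 := memℓp_norm_iff.mpr h0
  exact (h1.const_mul c).mono h

omit [CompleteSpace K] in
theorem norm_le_of_le (σ : ι ≃ ι) (f g : L2 ι K) {c : ℝ} (hc : 0 ≤ c)
    (h : ∀ t, ‖g t‖ ≤ c * ‖f (σ t)‖) : ‖g‖ ≤ c * ‖f‖ := by
  let f' : L2 ι K := ⟨fun t => f (σ t), memlp_of_le σ f _ 1 fun t => by simp⟩
  have h1 : ‖f'‖ = ‖f‖ := by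
    rw [lp.norm_eq_tsum_rpow (by norm_num), lp.norm_eq_tsum_rpow (by norm_num)]
    congr 1
    exact σ.tsum_eq (fun t => ‖f t‖ ^ (2 : ℝ≥0∞).toReal)
  have h2 : ‖g‖ ≤ ‖(c : ℂ) • f'‖ := by
    apply lp.norm_mono (by norm_num)
    intro t
    rw [lp.coeFn_smul, Pi.smul_apply, norm_smul, Complex.norm_real, Real.norm_of_nonneg hc]
    exact h t
  rwa [norm_smul, Complex.norm_real, Real.norm_of_nonneg hc, h1] at h2

omit [CompleteSpace K] in
theorem le_of_contr {a : K →L[ℂ] K} (h : ‖a‖ ≤ 1) (x : K) : ‖a x‖ ≤ 1 * ‖x‖ :=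
  (a.le_opNorm x).trans (by gcongr)

/-- the weighted permutation `f ↦ (t ↦ a t (f (σ t)))` -/
noncomputable def wp (σ : ι ≃ ι) (a : ι → K →L[ℂ] K) (h : ∀ t, ‖a t‖ ≤ 1) :
    L2 ι K →L[ℂ] L2 ι K :=
  LinearMap.mkContinuous
    { toFun := fun f => ⟨fun t => a t (f (σ t)), memlp_of_le σ f _ 1 fun t => le_of_contr (h t) _⟩
      map_add' := fun v w => by
        apply lp.ext
        funext i
        simp only [lp.coeFn_add, Pi.add_apply, map_add]
      map_smul' := fun c v => by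
        apply lp.ext
        funext i
        simp only [lp.coeFn_smul, Pi.smul_apply, map_smul]
        rfl } 1 fun f => norm_le_of_le σ f _ zero_le_one fun t => le_of_contr (h t) _

omit [CompleteSpace K] in
@[simp] theorem wp_apply (σ : ι ≃ ι) (a : ι → K →L[ℂ] K) (h : ∀ t, ‖a t‖ ≤ 1) (f : L2 ι K)
    (t : ι) : wp σ a h f t = a t (f (σ t)) := rfl

theorem star_wp (σ : ι ≃ ι) (a : ι → K →L[ℂ] K) (h : ∀ t, ‖a t‖ ≤ 1) :
    star (wp σ a h) = wp σ.symm (fun t => star (a (σ.symm t))) fun t => by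
      rw [norm_star]; exact h _ := by
  rw [ContinuousLinearMap.star_eq_adjoint, eq_comm, ContinuousLinearMap.eq_adjoint_iff]
  intro f g
  rw [lp.inner_eq_tsum, lp.inner_eq_tsum, ← σ.tsum_eq]
  refine tsum_congr fun t => ?_
  rw [wp_apply, wp_apply, Equiv.symm_apply_apply, ContinuousLinearMap.star_eq_adjoint,
    ContinuousLinearMap.adjoint_inner_left]

omit [CompleteSpace K] in
theorem op_ext {x y : L2 ι K →L[ℂ] L2 ι K} (h : ∀ f t, x f t = y f t) : x = y :=
  ContinuousLinearMap.ext fun f => lp.ext (funext (h f))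

end wp

section ind

variable {G K : Type} [Group G] [NormedAddCommGroup K] [InnerProductSpace ℂ K] [CompleteSpace K]

/-- left translations -/
noncomputable def lt (G K : Type) [Group G] [NormedAddCommGroup K] [InnerProductSpace ℂ K] :
    G →* (L2 G K →L[ℂ] L2 G K) where
  toFun h := wp (Equiv.mulLeft h⁻¹) (fun _ => 1) fun _ => ContinuousLinearMap.norm_id_le
  map_one' := op_ext fun f t => by simp
  map_mul' g h := op_ext fun f t => by simp

omit [CompleteSpace K] in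
@[simp] theorem lt_apply (h : G) (f : L2 G K) (t : G) : lt G K h f t = f (h⁻¹ * t) := rfl

theorem lt_star (h : G) : star (lt G K h) = lt G K h⁻¹ := by
  refine (star_wp _ _ fun _ => ContinuousLinearMap.norm_id_le).trans (op_ext fun f t => ?_)
  change (star (1 : K →L[ℂ] K)) _ = _
  rw [star_one]
  simp

/-- the covariant system induced by a family of projections -/
noncomputable def ind (q : Set G → K →L[ℂ] K) (hs : ∀ S, star (q S) = q S)
    (hm : ∀ S T, q S * q T = q (S ∩ T)) (hc : ∀ S, q S + q Sᶜ = 1) (he : q ∅ = 0) :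
    Sys G (L2 G K →L[ℂ] L2 G K) where
  l := lt G K
  p S := wp (Equiv.refl G) (fun t => q {s | t * s ∈ S}) fun t =>
    norm_proj_le (hs _) (by rw [hm, Set.inter_self])
  l_star := lt_star
  p_star S := (star_wp _ _ _).trans (op_ext fun f t => by simp [hs])
  p_mul S T := op_ext fun f t => by
    simp only [mul_apply_eq_comp, wp_apply, Equiv.refl_apply]
    rw [← mul_apply_eq_comp, hm]
    rfl
  p_compl S := op_ext fun f t => by
    simp only [add_apply, lp.coeFn_add, Pi.add_apply, wp_apply,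
      Equiv.refl_apply, one_apply_eq_self]
    rw [← add_apply]
    exact congrArg (fun x : K →L[ℂ] K => x (f t)) (hc {s | t * s ∈ S})
  p_empty := op_ext fun f t => by simp [he]
  cov S g := op_ext fun f t => by simp [← mul_assoc]

open Classical in
/-- the regular representation with the multiplication operators -/
noncomputable def reg (G : Type) [Group G] : Sys G (L2 G ℂ →L[ℂ] L2 G ℂ) :=
  ind (fun S => if (1 : G) ∈ S then 1 else 0) (fun S => by split_ifs <;> simp)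
    (fun S T => by by_cases h : (1 : G) ∈ S <;> by_cases k : (1 : G) ∈ T <;> simp [h, k])
    (fun S => by by_cases h : (1 : G) ∈ S <;> simp [h]) (by simp)

theorem exists_fixed (G : Type) [Group G] : ∃ ξ : L2 G ℂ, ‖ξ‖ = 1 ∧ (reg G).p {1} ξ = ξ := by
  classical
  refine ⟨lp.single 2 1 1, by rw [lp.norm_single (by norm_num), norm_one], lp.ext (funext fun t => ?_)⟩
  change (if (1 : G) ∈ {s | t * s ∈ ({1} : Set G)} then (1 : ℂ →L[ℂ] ℂ) else 0) _ = _
  by_cases h : t = 1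
  · simp [h]
  · simp [h, lp.single_apply]

theorem norm_rep_le (ρ : G →* (K →L[ℂ] K)) (hρ : ∀ g, star (ρ g) = ρ g⁻¹) (g : G) : ‖ρ g‖ ≤ 1 :=
  norm_le_one_of (by rw [hρ, ← map_mul, inv_mul_cancel, map_one])

/-- the tensor product of `ρ` and the right translations -/
noncomputable def th (ρ : G →* (K →L[ℂ] K)) (hρ : ∀ g, star (ρ g) = ρ g⁻¹) (g : G) :
    L2 G K →L[ℂ] L2 G K :=
  wp (Equiv.mulRight g) (fun _ => ρ g) fun _ => norm_rep_le ρ hρ g

@[simp] theorem th_apply (ρ : G →* (K →L[ℂ] K)) (hρ : ∀ g, star (ρ g) = ρ g⁻¹) (g : G)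
    (f : L2 G K) (t : G) : th ρ hρ g f t = ρ g (f (t * g)) := rfl

theorem th_star (ρ : G →* (K →L[ℂ] K)) (hρ : ∀ g, star (ρ g) = ρ g⁻¹) (g : G) :
    star (th ρ hρ g) = th ρ hρ g⁻¹ := by
  refine (star_wp _ _ _).trans (op_ext fun f t => ?_)
  simp [hρ]

theorem th_norm (ρ : G →* (K →L[ℂ] K)) (hρ : ∀ g, star (ρ g) = ρ g⁻¹) (g : G) :
    ‖th ρ hρ g‖ ≤ 1 :=
  ContinuousLinearMap.opNorm_le_bound _ zero_le_one fun f =>
    norm_le_of_le (Equiv.mulRight g) f _ zero_le_one fun _ => le_of_contr (norm_rep_le ρ hρ g) _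

theorem th_lt (ρ : G →* (K →L[ℂ] K)) (hρ : ∀ g, star (ρ g) = ρ g⁻¹) (g h : G) :
    th ρ hρ g * lt G K h = lt G K h * th ρ hρ g :=
  op_ext fun f t => by simp [mul_assoc]

/-- absorption with control of the intertwiner -/
theorem exists_absorb (ρ π : G →* (K →L[ℂ] K)) (hρ : ∀ g, star (ρ g) = ρ g⁻¹)
    (hπ : ∀ g, star (π g) = π g⁻¹) {c : ℝ} (hc : 0 ≤ c) (h : ∀ g, ‖π g * star (ρ g) - 1‖ ≤ c) :
    ∃ u ∈ unitary (L2 G K →L[ℂ] L2 G K), ‖u - 1‖ ≤ c ∧ ∀ g, u * th ρ hρ g = th π hπ g * u := by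
  have hb : ∀ t : G, ‖π t⁻¹ * ρ t‖ ≤ 1 := fun t => (norm_mul_le _ _).trans
    (mul_le_one₀ (norm_rep_le π hπ _) (norm_nonneg _) (norm_rep_le ρ hρ _))
  have m : ∀ (σ : G →* (K →L[ℂ] K)) (g k : G) (x : K), σ g (σ k x) = σ (g * k) x := by
    intro σ g k x; rw [map_mul]; rfl
  refine ⟨wp (Equiv.refl G) (fun t => π t⁻¹ * ρ t) hb, ⟨?_, ?_⟩, ?_, fun g => ?_⟩
  · rw [star_wp]
    exact op_ext fun f t => by simp [hρ, hπ, m]
  · rw [star_wp]
    exact op_ext fun f t => by simp [hρ, hπ, m]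
  · refine ContinuousLinearMap.opNorm_le_bound _ hc fun f =>
      norm_le_of_le (Equiv.refl G) f _ hc fun t => ?_
    have h1 := h t⁻¹
    rw [hρ, inv_inv] at h1
    exact ((π t⁻¹ * ρ t - 1).le_opNorm (f t)).trans (by gcongr; rfl)
  · refine op_ext fun f t => ?_
    change π t⁻¹ (ρ t (ρ g (f (t * g)))) = π g (π (t * g)⁻¹ (ρ (t * g) (f (t * g))))
    rw [m ρ, m π, mul_inv_rev, mul_inv_cancel_left]

theorem lower_bound (π : G →* (K →L[ℂ] K)) (hπ : ∀ g, star (π g) = π g⁻¹) (g : ℕ → G)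
    {e : K →L[ℂ] K} (es : star e = e) (ee : e * e = e) {ξ : K} (nξ : ‖ξ‖ = 1) (pξ : e ξ = ξ)
    {b : ℝ} (hb : 0 ≤ b) (h : ∀ i, e * π (g i) * e = (b : ℂ) • e) (n : ℕ) :
    n * b ≤ ‖∑ i ∈ Finset.range n, th π hπ (g i) * lt G K (g i)‖ := by
  classical
  set T := ∑ i ∈ Finset.range n, th π hπ (g i) * lt G K (g i) with hT
  let f : L2 G K := lp.single 2 1 ξ
  have nf : ‖f‖ = 1 := by rw [lp.norm_single (by norm_num), nξ]
  have h4 : T f 1 = ∑ i ∈ Finset.range n, π (g i) ξ := by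
    rw [hT, sum_apply, lp.coeFn_sum, Finset.sum_apply]
    refine Finset.sum_congr rfl fun i _ => ?_
    simp [f]
  have h5 : e (T f 1) = ((n * b : ℝ) : ℂ) • ξ := by
    rw [h4, map_sum, Finset.sum_congr rfl fun i _ => show e (π (g i) ξ) = (b : ℂ) • ξ by
      have := congrArg (fun x : K →L[ℂ] K => x ξ) (h i)
      simpa [pξ] using this]
    simp [mul_smul, Nat.cast_smul_eq_nsmul]
  have a1 := le_of_contr (norm_proj_le es ee) (T f 1)
  have a2 := lp.norm_apply_le_norm (by norm_num) (T f) 1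
  have a3 := T.le_opNorm f
  rw [h5, norm_smul, nξ, Complex.norm_real, Real.norm_of_nonneg (by positivity)] at a1
  rw [nf] at a3
  linarith

end ind

theorem conj_bound {A : Type*} [CStarAlgebra A] (Y : Sys (FreeGroup ℕ) A) (θ : ℕ → A) {s t : A}
    (st : s * t = 1) (ts : t * s = 1) (hθ : ∀ i, ‖θ i‖ ≤ 1) (hs : ∀ h, Y.l h * s = s * Y.l h)
    (hc : ∀ i S, s * θ i * t * Y.p S = Y.p S * (s * θ i * t)) (n : ℕ) :
    ‖∑ i ∈ Finset.range n, θ i * Y.l (FreeGroup.of i)‖ ^ 2 ≤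
      (‖s‖ * ‖t‖) ^ 2 * (4 * (n * (‖s‖ * ‖t‖) ^ 2)) := by
  have ht : ∀ h, Y.l h * t = t * Y.l h := fun h => by
    calc Y.l h * t = t * s * Y.l h * t := by rw [ts, one_mul]
      _ = t * Y.l h * (s * t) := by rw [mul_assoc t, ← hs]; simp only [mul_assoc]
      _ = _ := by rw [st, mul_one]
  have h1 := gen_bound (X := Y) (fun i => s * θ i * t) (‖s‖ * ‖t‖) n
    (fun i => (norm_mul3_le _ _ _).trans (by
      have h1 := hθ i
      calc _ ≤ ‖s‖ * 1 * ‖t‖ := by gcongr
        _ = _ := by rw [mul_one])) hc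
  have h2 : ∑ i ∈ Finset.range n, θ i * Y.l (FreeGroup.of i) =
      t * (∑ i ∈ Finset.range n, s * θ i * t * Y.l (FreeGroup.of i)) * s := by
    rw [Finset.mul_sum, Finset.sum_mul]
    refine Finset.sum_congr rfl fun i _ => ?_
    rw [mul_assoc _ t, ← ht]
    simp only [← mul_assoc, ts, one_mul]
    rw [mul_assoc _ t, ts, mul_one]
  rw [h2]
  calc _ ≤ (‖s‖ * ‖t‖ * ‖∑ i ∈ Finset.range n, s * θ i * t * Y.l (FreeGroup.of i)‖) ^ 2 := by
        gcongr
        exact (norm_mul3_le _ _ _).trans (le_of_eq (by ring))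
    _ ≤ _ := by rw [mul_pow]; gcongr

section vn

variable {H : Type} [NormedAddCommGroup H] [InnerProductSpace ℂ H] [CompleteSpace H]

/-- the commutant of a set of operators and their adjoints -/
noncomputable def cm (S : Set (H →L[ℂ] H)) : VonNeumannAlgebra H where
  toStarSubalgebra := StarSubalgebra.centralizer ℂ S
  centralizer_centralizer' := by simp

theorem mem_cm {ι : Type} (v : ι → H →L[ℂ] H) (hv : ∀ i, ∃ j, star (v i) = v j) {x : H →L[ℂ] H} :
    x ∈ cm (Set.range v) ↔ ∀ i, v i * x = x * v i := by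
  change x ∈ StarSubalgebra.centralizer ℂ (Set.range v) ↔ _
  rw [StarSubalgebra.mem_centralizer_iff]
  constructor
  · exact fun h i => (h _ ⟨i, rfl⟩).1
  · rintro h _ ⟨i, rfl⟩
    obtain ⟨j, hj⟩ := hv i
    exact ⟨h i, by rw [hj]; exact h j⟩

end vn

/-- the free group on countably many generators -/
abbrev F := FreeGroup ℕ

/-- the Hilbert space of the example -/
noncomputable abbrev HH := L2 F (L2 F ℂ)

/-- the generators of the fixed algebra -/
noncomputable def th0 : F → HH →L[ℂ] HH := th (reg F).l (reg F).l_star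

/-- the fixed algebra -/
noncomputable def MM : VonNeumannAlgebra HH := (cm (Set.range th0)).commutant

/-- the ambient algebra -/
noncomputable def PP : VonNeumannAlgebra HH := cm (Set.range (lt F (L2 F ℂ)))

theorem mem_PP {x : HH →L[ℂ] HH} : x ∈ PP ↔ ∀ h, lt F _ h * x = x * lt F _ h :=
  mem_cm _ fun h => ⟨h⁻¹, lt_star h⟩

theorem comm_MM {x y : HH →L[ℂ] HH} (hx : x ∈ MM) (hy : ∀ g, th0 g * y = y * th0 g) :
    y * x = x * y :=
  VonNeumannAlgebra.mem_commutant_iff.1 hx y ((mem_cm _ fun g => ⟨g⁻¹, th_star _ _ g⟩).2 hy)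

theorem th0_mem (g : F) : th0 g ∈ MM :=
  VonNeumannAlgebra.mem_commutant_iff.2 fun _ hy =>
    ((mem_cm _ fun g => ⟨g⁻¹, th_star _ _ g⟩).1 hy g).symm

theorem MM_le : MM ≤ PP := fun _ hx => mem_PP.2 fun h => comm_MM hx fun g => th_lt _ _ g h

/-- the covariant system of the left translations -/
noncomputable def YY : Sys F (HH →L[ℂ] HH) :=
  ind (reg F).p (reg F).p_star (reg F).p_mul (reg F).p_compl (reg F).p_empty

theorem comm_YY {x : HH →L[ℂ] HH} (hx : x ∈ MM) (S : Set F) : YY.p S * x = x * YY.p S :=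
  comm_MM hx fun g => op_ext fun f r => by
    change ((reg F).l g * (reg F).p {s | r * g * s ∈ S}) (f (r * g)) =
      ((reg F).p {s | r * s ∈ S} * (reg F).l g) (f (r * g))
    rw [(reg F).cov]
    simp only [Set.mem_ofPred_eq, mul_assoc]

theorem not_conj {ε : ℝ} (hε : 0 < ε) :
    ∃ (u : HH →L[ℂ] HH) (hu : u ∈ unitary (HH →L[ℂ] HH)), ‖u - 1‖ < ε ∧ conjVN hu MM ≤ PP ∧
      ∀ s ∈ PP, ∀ t, s * t = 1 → t * s = 1 → ¬ ∀ x ∈ conjVN hu MM, s * x * t ∈ MM := by
  obtain ⟨b, hb0, hb1, hbε⟩ : ∃ b : ℝ, 0 < b ∧ b ≤ 1 ∧ 8 * b < ε :=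
    ⟨min 1 (ε / 9), by positivity, min_le_left _ _, by
      have := min_le_right 1 (ε / 9); linarith⟩
  obtain ⟨π0, hπ1, hπ2⟩ := exists_deform (reg F) hb0.le hb1
  let π : F →* (L2 F ℂ →L[ℂ] L2 F ℂ) := (unitary _).subtype.comp π0
  have hπ : ∀ g, star (π g) = π g⁻¹ := fun g => by
    simp [π, ← Unitary.star_eq_inv]
  obtain ⟨u, hu, nu, eu⟩ := exists_absorb (reg F).l π (reg F).l_star hπ (by positivity) hπ1
  have u1 := Unitary.star_mul_self_of_mem hu
  have u2 := Unitary.mul_star_self_of_mem hu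
  have eu' : ∀ g, star u * th π hπ g * u = th0 g := fun g => by
    rw [mul_assoc, ← eu, ← mul_assoc, u1, one_mul]; rfl
  have eu2 : ∀ g, th0 g * star u = star u * th π hπ g := fun g => by
    rw [← eu', mul_assoc, u2, mul_one]
  refine ⟨u, hu, by linarith, fun x hx => mem_PP.2 fun h => ?_, fun s hs t st ts hx => ?_⟩
  · have h1 := comm_MM ((mem_conjVN hu MM x).1 hx) (y := star u * lt F _ h * u) fun g => by
      rw [← mul_assoc, ← mul_assoc, eu2, mul_assoc (star u), th_lt, mul_assoc, mul_assoc, ← eu]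
      simp only [mul_assoc]
      rfl
    have h2 := congrArg (fun z => u * z * star u) h1
    simp only [mul_assoc, u2, mul_one] at h2
    simpa only [← mul_assoc, u2, one_mul, mul_assoc _ u (star u), mul_one] using h2
  · obtain ⟨ξ, nξ, pξ⟩ := exists_fixed F
    have key : ∀ n : ℕ, (n * b) ^ 2 ≤ (‖s‖ * ‖t‖) ^ 2 * (4 * (n * (‖s‖ * ‖t‖) ^ 2)) := by
      intro n
      refine le_trans ?_ (conj_bound YY (fun i => th π hπ (FreeGroup.of i)) st ts
        (fun i => th_norm π hπ _) (mem_PP.1 hs) (fun i S => (comm_YY (hx _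
          ((mem_conjVN hu MM _).2 (by rw [eu']; exact th0_mem _))) S).symm) n)
      exact pow_le_pow_left₀ (by positivity)
        (lower_bound π hπ FreeGroup.of ((reg F).p_star {1}) ((reg F).p_idem _) nξ pξ hb0.le hπ2 n) 2
    generalize ‖s‖ * ‖t‖ = κ at key
    obtain ⟨n, hn⟩ := exists_nat_gt (4 * κ ^ 4 / b ^ 2)
    have hn0 : (0 : ℝ) < n := lt_of_le_of_lt (by positivity) hn
    rw [div_lt_iff₀ (by positivity)] at hn
    have h7 := key n
    nlinarith

end Vale.Agent.N096
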