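import Mathlib.Analysis.CStarAlgebra.GelfandDuality
import Mathlib.GroupTheory.FreeGroup.Orbit
import Mathlib.Tactic

/-!
# P096: small unitary deformations of the regular representation of a free group

A covariant system is a unitary representation `l` of a group `G` in a C*-algebra together with
projections `p S`, `S ⊆ G`, that behave as multiplication by indicator functions.  For the free
group we prove the row and column bound for sums of free generators, and that the
representation `g i ↦ R i * l (g i)`, with `R i` a small rotation in the plane of `1` and `g i`,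
is uniformly close to `l`.
-/

namespace Vale.Agent.N096

/-- covariant systems -/
structure Sys (G A : Type*) [Group G] [CStarAlgebra A] where
  l : G →* A
  p : Set G → A
  l_star : ∀ g, star (l g) = l g⁻¹
  p_star : ∀ S, star (p S) = p S
  p_mul : ∀ S T, p S * p T = p (S ∩ T)
  p_compl : ∀ S, p S + p Sᶜ = 1
  p_empty : p ∅ = 0
  cov : ∀ S g, p S * l g = l g * p {s | g * s ∈ S}

section cstar

variable {A : Type*} [CStarAlgebra A]

theorem norm_le_one_of {x : A} (h : star x * x = 1) : ‖x‖ ≤ 1 := by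
  have h1 : ‖x‖ * ‖x‖ = ‖(1 : A)‖ := by rw [← CStarRing.norm_star_mul_self, h]
  have h2 : ‖(1 : A)‖ * ‖(1 : A)‖ = ‖(1 : A)‖ := by
    rw [← CStarRing.norm_star_mul_self, star_one, one_mul]
  have h3 : ‖(1 : A)‖ ≤ 1 := by nlinarith [norm_nonneg (1 : A)]
  nlinarith [norm_nonneg x]

theorem norm_proj_le {e : A} (h1 : star e = e) (h2 : e * e = e) : ‖e‖ ≤ 1 := by
  have h : ‖e‖ * ‖e‖ = ‖e‖ := by rw [← CStarRing.norm_star_mul_self, h1, h2]
  nlinarith [norm_nonneg e]

theorem norm_mul3_le (a b c : A) : ‖a * b * c‖ ≤ ‖a‖ * ‖b‖ * ‖c‖ :=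
  (norm_mul_le _ _).trans (mul_le_mul_of_nonneg_right (norm_mul_le _ _) (norm_nonneg _))

theorem norm_conj_le {w : A} (hw : w ∈ unitary A) (x : A) : ‖w * x * star w‖ ≤ ‖x‖ := by
  have h1 := norm_le_one_of (Unitary.star_mul_self_of_mem hw)
  have h2 := norm_mul3_le w x (star w)
  rw [norm_star] at h2
  have h3 : ‖w‖ * ‖x‖ * ‖w‖ ≤ 1 * ‖x‖ * 1 := by gcongr
  linarith

theorem conj_sub_one {w : A} (hw : w ∈ unitary A) (x : A) :
    w * x * star w - 1 = w * (x - 1) * star w := by
  rw [mul_sub, sub_mul, mul_one, Unitary.mul_star_self_of_mem hw]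

theorem norm_mul_sub_one {a b : A} (ha : a ∈ unitary A) : ‖a * b - 1‖ ≤ ‖a - 1‖ + ‖b - 1‖ := by
  have h1 := norm_le_one_of (Unitary.star_mul_self_of_mem ha)
  have h2 : a * b - 1 = (a - 1) + a * (b - 1) := by noncomm_ring
  rw [h2]
  refine (norm_add_le _ _).trans ?_
  have h3 := norm_mul_le a (b - 1)
  nlinarith [norm_nonneg (b - 1)]

/-- column bound: orthogonal ranges -/
theorem col_bound (F y : ℕ → A) (c : ℝ) (n : ℕ) (hF : ∀ i, star (F i) = F i)
    (hF1 : ∀ i, F i * F i = F i) (hF0 : ∀ i j, i ≠ j → F i * F j = 0) (hy : ∀ i, ‖y i‖ ≤ c) :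
    ‖∑ i ∈ Finset.range n, F i * y i‖ ^ 2 ≤ n * c ^ 2 := by
  have h1 : star (∑ i ∈ Finset.range n, F i * y i) * (∑ i ∈ Finset.range n, F i * y i) =
      ∑ i ∈ Finset.range n, star (y i) * F i * y i := by
    rw [star_sum, Finset.sum_mul]
    refine Finset.sum_congr rfl fun i hi => ?_
    rw [Finset.mul_sum, Finset.sum_eq_single i]
    · rw [star_mul, hF, mul_assoc, ← mul_assoc (F i), hF1, mul_assoc]
    · intro j _ hj
      rw [star_mul, hF, mul_assoc, ← mul_assoc (F i), hF0 i j hj.symm, zero_mul, mul_zero]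
    · intro h; exact absurd hi h
  rw [sq, ← CStarRing.norm_star_mul_self, h1]
  refine (norm_sum_le _ _).trans ?_
  have h2 : ∀ i ∈ Finset.range n, ‖star (y i) * F i * y i‖ ≤ c ^ 2 := by
    intro i _
    have h3 := norm_mul3_le (star (y i)) (F i) (y i)
    rw [norm_star] at h3
    have h4 := norm_proj_le (hF i) (hF1 i)
    have h5 := hy i
    have h0 := norm_nonneg (y i)
    have h6 : ‖y i‖ * ‖F i‖ * ‖y i‖ ≤ c * 1 * c := by
      have : 0 ≤ c := h0.trans h5
      gcongr
    nlinarith
  refine (Finset.sum_le_card_nsmul _ _ _ h2).trans ?_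
  simp

/-- row bound -/
theorem row_bound (F y : ℕ → A) (c : ℝ) (n : ℕ) (hF : ∀ i, star (F i) = F i)
    (hF1 : ∀ i, F i * F i = F i) (hF0 : ∀ i j, i ≠ j → F i * F j = 0) (hy : ∀ i, ‖y i‖ ≤ c) :
    ‖∑ i ∈ Finset.range n, y i * F i‖ ^ 2 ≤ n * c ^ 2 := by
  have h := col_bound F (fun i => star (y i)) c n hF hF1 hF0 (fun i => by rw [norm_star]; exact hy i)
  rw [← norm_star, star_sum] at h
  simpa only [star_mul, star_star, hF] using h

end cstar

namespace Sys

variable {G A : Type*} [Group G] [CStarAlgebra A] (X : Sys G A)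

theorem l_mem (g : G) : X.l g ∈ unitary A := by
  constructor
  · rw [X.l_star, ← map_mul, inv_mul_cancel, map_one]
  · rw [X.l_star, ← map_mul, mul_inv_cancel, map_one]

theorem p_idem (S : Set G) : X.p S * X.p S = X.p S := by rw [X.p_mul, Set.inter_self]

theorem p_disj {S T : Set G} (h : Disjoint S T) : X.p S * X.p T = 0 := by
  rw [X.p_mul, Set.disjoint_iff_inter_eq_empty.1 h, X.p_empty]

/-- `U` is a unitary that differs from `1` only on the part `S` -/
structure Loc (S : Set G) (U : A) : Prop where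
  mem : U ∈ unitary A
  left : X.p S * (U - 1) = U - 1
  right : (U - 1) * X.p S = U - 1

variable {X}

theorem Loc.one (S : Set G) : X.Loc S 1 := ⟨one_mem _, by simp, by simp⟩

theorem Loc.mono {S T : Set G} {U : A} (h : X.Loc S U) (hST : S ⊆ T) : X.Loc T U := by
  refine ⟨h.mem, ?_, ?_⟩
  · rw [← h.left, ← mul_assoc, X.p_mul, Set.inter_eq_self_of_subset_right hST]
  · rw [← h.right, mul_assoc, X.p_mul, Set.inter_eq_self_of_subset_left hST]

theorem Loc.star {S : Set G} {U : A} (h : X.Loc S U) : X.Loc S (star U) := by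
  refine ⟨Unitary.star_mem h.mem, ?_, ?_⟩
  · have := congrArg Star.star h.right
    rwa [star_mul, X.p_star, star_sub, star_one] at this
  · have := congrArg Star.star h.left
    rwa [star_mul, X.p_star, star_sub, star_one] at this

theorem Loc.mul {S : Set G} {U V : A} (h : X.Loc S U) (k : X.Loc S V) : X.Loc S (U * V) := by
  have e : U * V - 1 = (U - 1) * (V - 1) + (U - 1) + (V - 1) := by noncomm_ring
  refine ⟨mul_mem h.mem k.mem, ?_, ?_⟩
  · rw [e, mul_add, mul_add, ← mul_assoc, h.left, k.left]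
  · rw [e, add_mul, add_mul, mul_assoc, h.right, k.right]

theorem Loc.orth {S T : Set G} {U V : A} (h : X.Loc S U) (k : X.Loc T V) (d : Disjoint S T) :
    (U - 1) * (V - 1) = 0 := by
  rw [← h.right, ← k.left, mul_assoc, ← mul_assoc (X.p S), X.p_disj d, zero_mul, mul_zero]

theorem Loc.comm {S T : Set G} {U V : A} (h : X.Loc S U) (k : X.Loc T V) (d : Disjoint S T) :
    U * V = V * U := by
  have e1 : U * V = (U - 1) * (V - 1) + U + V - 1 := by noncomm_ring
  have e2 : V * U = (V - 1) * (U - 1) + U + V - 1 := by noncomm_ring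
  rw [e1, e2, h.orth k d, k.orth h d.symm]

theorem normal_sub_one {U : A} (h : U ∈ unitary A) : IsStarNormal (U - 1) := by
  refine ⟨?_⟩
  have h1 := Unitary.star_mul_self_of_mem h
  have h2 := Unitary.mul_star_self_of_mem h
  change Star.star (U - 1) * (U - 1) = (U - 1) * Star.star (U - 1)
  rw [star_sub, star_one]
  have e1 : (Star.star U - 1) * (U - 1) = Star.star U * U - Star.star U - U + 1 := by noncomm_ring
  have e2 : (U - 1) * (Star.star U - 1) = U * Star.star U - Star.star U - U + 1 := by noncomm_ring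
  rw [e1, e2, h1, h2]

theorem Loc.norm_mul {S T : Set G} {U V : A} {c : ℝ} (h : X.Loc S U) (k : X.Loc T V)
    (d : Disjoint S T) (hU : ‖U - 1‖ ≤ c) (hV : ‖V - 1‖ ≤ c) : ‖U * V - 1‖ ≤ c := by
  have e : U * V - 1 = (U - 1) * (V - 1) + ((U - 1) + (V - 1)) := by noncomm_ring
  have hc : Commute (U - 1) (V - 1) := by
    change (U - 1) * (V - 1) = (V - 1) * (U - 1)
    rw [h.orth k d, k.orth h d.symm]
  rw [e, h.orth k d, zero_add,
    (normal_sub_one h.mem).norm_add_eq_max (normal_sub_one k.mem) hc (h.orth k d)]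
  exact max_le hU hV

theorem Loc.conj {S T : Set G} {U : A} (h : X.Loc S U) (g : G) (hT : ∀ s ∈ S, g * s ∈ T) :
    X.Loc T (X.l g * U * Star.star (X.l g)) := by
  have hg := X.l_mem g
  have h' := h.mono (T := {s | g * s ∈ T}) hT
  have e1 : Star.star (X.l g) * X.p T = X.p {s | g * s ∈ T} * Star.star (X.l g) := by
    have := congrArg Star.star (X.cov T g)
    rwa [star_mul, star_mul, X.p_star, X.p_star] at this
  refine ⟨mul_mem (mul_mem hg h.mem) (Unitary.star_mem hg), ?_, ?_⟩
  · rw [conj_sub_one hg, ← mul_assoc, ← mul_assoc, X.cov, mul_assoc (X.l g), h'.left]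
  · rw [conj_sub_one hg, mul_assoc, e1, ← mul_assoc, mul_assoc (X.l g), h'.right]

/-- a rotation in the plane of `1` and `g` -/
theorem exists_rot (X : Sys G A) {g : G} (hg : g ≠ 1) {b : ℝ} (hb0 : 0 ≤ b) (hb1 : b ≤ 1) :
    ∃ R, X.Loc {1, g} R ∧ ‖R - 1‖ ≤ 4 * b ∧
      X.p {1} * (R * X.l g) * X.p {1} = (b : ℂ) • X.p {1} := by
  obtain ⟨a, ha, ha'⟩ : ∃ a : ℝ, 2 * a + a ^ 2 + b ^ 2 = 0 ∧ |a| ≤ b := by
    have h0 : 0 ≤ 1 - b ^ 2 := by nlinarith
    have h1 := Real.sq_sqrt h0
    have h2 := Real.sqrt_nonneg (1 - b ^ 2)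
    refine ⟨√(1 - b ^ 2) - 1, by nlinarith, abs_le.2 ⟨?_, ?_⟩⟩
    · have : 1 - b ≤ √(1 - b ^ 2) := Real.le_sqrt_of_sq_le (by nlinarith)
      linarith
    · have : √(1 - b ^ 2) ≤ 1 := Real.sqrt_le_one.2 (by nlinarith)
      linarith
  have haC : 2 * (a : ℂ) + (a : ℂ) ^ 2 + (b : ℂ) ^ 2 = 0 := by exact_mod_cast ha
  set e := X.p {1} with he
  set f := X.p {g} with hf
  have lm := X.l_mem g
  have l1 := Unitary.star_mul_self_of_mem lm
  have l2 := Unitary.mul_star_self_of_mem lm
  have es : star e = e := X.p_star _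
  have fs : star f = f := X.p_star _
  have ee : e * e = e := X.p_idem _
  have ff : f * f = f := X.p_idem _
  have ef : e * f = 0 := X.p_disj (by simpa using hg.symm)
  have fe : f * e = 0 := X.p_disj (by simpa using hg)
  have cv : f * X.l g = X.l g * e := by
    rw [hf, X.cov, he]; congr 2; ext s; simp
  set V := X.l g * e with hV
  set W := star V with hW
  have hW' : W = e * star (X.l g) := by rw [hW, hV, star_mul, es]
  have WV : W * V = e := by rw [hW', hV, mul_assoc, ← mul_assoc (star _), l1, one_mul, ee]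
  have VW : V * W = f := by
    rw [hW', hV, mul_assoc, ← mul_assoc e, ee, ← mul_assoc, ← hV, ← cv, mul_assoc, l2, mul_one]
  have Ve : V * e = V := by rw [hV, mul_assoc, ee]
  have Vf : V * f = 0 := by rw [hV, mul_assoc, ef, mul_zero]
  have fV : f * V = V := by rw [← cv, ← mul_assoc, ff]
  have eV : e * V = 0 := by rw [← cv, ← mul_assoc, ef, zero_mul]
  have eW : e * W = W := by simpa [star_mul, es] using congrArg star Ve
  have fW : f * W = 0 := by simpa [star_mul, fs] using congrArg star Vf
  have Wf : W * f = W := by simpa [star_mul, fs] using congrArg star fV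
  have We : W * e = 0 := by simpa [star_mul, es] using congrArg star eV
  have VV : V * V = 0 := by rw [← Ve, mul_assoc, ← mul_assoc e, eV, zero_mul, mul_zero]
  have WW : W * W = 0 := by rw [← eW, mul_assoc, ← mul_assoc W, We, zero_mul, mul_zero]
  have Ws : star W = V := star_star V
  let D : A := (a : ℂ) • (e + f) + (b : ℂ) • (W - V)
  have hD : D = (a : ℂ) • (e + f) + (b : ℂ) • (W - V) := rfl
  have hD' : star (1 + D) = 1 + ((a : ℂ) • (e + f) + (b : ℂ) • (V - W)) := by
    rw [hD]
    simp only [star_add, star_one, star_smul, star_sub, es, fs, Ws, ← hW, Complex.star_def,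
      Complex.conj_ofReal]
  have q : X.p {1, g} * e = e ∧ X.p {1, g} * f = f ∧ e * X.p {1, g} = e ∧ f * X.p {1, g} = f := by
    refine ⟨?_, ?_, ?_, ?_⟩ <;> simp only [he, hf, X.p_mul] <;> congr 1 <;> ext s <;>
      simp +contextual
  have hQ : (e + f) * D = D := by
    rw [hD]
    simp only [mul_add, add_mul, mul_sub, mul_smul_comm, ee, ef, fe, ff, eW, eV, fV, fW]
    module
  have hQ' : D * (e + f) = D := by
    rw [hD]
    simp only [mul_add, add_mul, sub_mul, smul_mul_assoc, ee, ef, fe, ff, We, Ve, Vf, Wf]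
    module
  have nz : ∀ x : A, x = 1 + (2 * (a : ℂ) + (a : ℂ) ^ 2 + (b : ℂ) ^ 2) • (e + f) → x = 1 := by
    intro x hx; rw [hx, haC, zero_smul, add_zero]
  refine ⟨1 + D, ⟨⟨nz _ ?_, nz _ ?_⟩, ?_, ?_⟩, ?_, ?_⟩
  · rw [hD', hD]
    simp only [mul_add, add_mul, mul_sub, sub_mul, smul_mul_assoc, mul_smul_comm, ee, ef, fe, ff,
      eW, eV, fV, fW, We, Ve, Vf, Wf, WV, VW, VV, WW, one_mul, mul_one]
    module
  · rw [hD', hD]
    simp only [mul_add, add_mul, mul_sub, sub_mul, smul_mul_assoc, mul_smul_comm, ee, ef, fe, ff,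
      eW, eV, fV, fW, We, Ve, Vf, Wf, WV, VW, VV, WW, one_mul, mul_one]
    module
  · rw [add_sub_cancel_left, ← hQ, ← mul_assoc, mul_add _ e f, q.1, q.2.1]
  · rw [add_sub_cancel_left, ← hQ', mul_assoc, add_mul e f, q.2.2.1, q.2.2.2]
  · rw [add_sub_cancel_left, hD]
    have n1 := norm_proj_le es ee
    have n2 := norm_proj_le fs ff
    have n3 : ‖V‖ ≤ 1 := by
      have h1 := norm_le_one_of l1
      have h2 := norm_mul_le (X.l g) e
      nlinarith [norm_nonneg (X.l g), norm_nonneg e]
    have n4 : ‖W‖ ≤ 1 := by rw [hW, norm_star]; exact n3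
    have n5 := norm_add_le e f
    have n6 := norm_sub_le W V
    refine (norm_add_le _ _).trans ?_
    rw [norm_smul, norm_smul, Complex.norm_real, Complex.norm_real, Real.norm_eq_abs,
      Real.norm_eq_abs, abs_of_nonneg hb0]
    nlinarith [norm_nonneg (e + f), norm_nonneg (W - V), abs_nonneg a]
  · rw [mul_assoc, mul_assoc, ← hV, hD]
    simp only [mul_add, add_mul, sub_mul, smul_mul_assoc, mul_smul_comm, eV, fV, WV, VV, ee,
      one_mul, mul_sub, mul_zero]
    module

end Sys

section free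

open FreeGroup

variable {A : Type*} [CStarAlgebra A] {X : Sys (FreeGroup ℕ) A}

/-- the words that start with the first letter of a list -/
def hd : List (ℕ × Bool) → Set (FreeGroup ℕ)
  | [] => ∅
  | s :: _ => startsWith s

theorem hd_step {s : ℕ × Bool} {L : List (ℕ × Bool)} (h : IsReduced (s :: L))
    {x : FreeGroup ℕ} (hx : x ∈ hd L) : x ≠ 1 ∧ x ∉ startsWith (s.1, !s.2) := by
  cases L with
  | nil => exact absurd hx (Set.notMem_empty x)
  | cons t L =>
    have h1 := (isReduced_cons_cons.1 h).1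
    refine ⟨startsWith.ne_one x hx, ?_⟩
    have h2 : t ≠ (s.1, !s.2) := by
      rintro rfl
      have := h1 rfl
      cases hs : s.2 <;> simp [hs] at this
    exact (startsWith.disjoint_iff_ne.2 h2).notMem_of_mem_left hx

theorem one_not_starts (s : ℕ × Bool) : (1 : FreeGroup ℕ) ∉ startsWith s :=
  fun h => startsWith.ne_one 1 h rfl

/-- the deformed representation is uniformly close to the given one -/
theorem close_of_letters (π : FreeGroup ℕ →* A) {c : ℝ} (hc : 0 ≤ c)
    (hR : ∀ s : ℕ × Bool, ∃ R, X.Loc {1, mk [s]} R ∧ ‖R - 1‖ ≤ c ∧ π (mk [s]) = R * X.l (mk [s]))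
    (g : FreeGroup ℕ) : ∃ U ∈ unitary A, ‖U - 1‖ ≤ 2 * c ∧ π g = U * X.l g := by
  have key : ∀ L : List (ℕ × Bool), IsReduced L → ∃ w a b : A, X.Loc (hd L) w ∧
      X.Loc (insert 1 (hd L)) a ∧ X.Loc (hd L) b ∧ ‖a - 1‖ ≤ c ∧ ‖b - 1‖ ≤ c ∧
      π (mk L) = w * (a * b) * star w * X.l (mk L) := by
    intro L
    induction L with
    | nil =>
      intro _
      refine ⟨1, 1, 1, .one _, .one _, .one _, by simpa using hc, by simpa using hc, ?_⟩
      rw [← one_eq_mk, _root_.map_one, _root_.map_one]; simp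
    | cons s L ih =>
      intro h
      obtain ⟨w, a, b, hw, ha, hb, na, nb, e⟩ := ih (List.isChain_cons.1 h).2
      obtain ⟨R, hR, nR, eR⟩ := hR s
      set v := X.l (mk [s]) with hv
      have vm : v ∈ unitary A := X.l_mem _
      have vv : star v * v = 1 := Unitary.star_mul_self_of_mem vm
      let T : Set (FreeGroup ℕ) := startsWith s \ {mk [s]}
      have hT : ∀ x ∈ hd L, mk [s] * x ∈ T := fun x hx =>
        ⟨startsWith_mk_mul x (hd_step h hx).2, fun h1 => (hd_step h hx).1 (by
          simpa using h1)⟩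
      have hT' : ∀ x ∈ insert 1 (hd L), mk [s] * x ∈ hd (s :: L) := by
        rintro x (rfl | hx)
        · exact startsWith_mk_mul 1 (one_not_starts _)
        · exact (hT x hx).1
      have hs : mk [s] ∈ startsWith s := by
        simpa using startsWith_mk_mul (w := s) 1 (one_not_starts _)
      have dT : Disjoint T {1, mk [s]} := by
        rw [Set.disjoint_left]
        rintro x hx (rfl | rfl)
        · exact one_not_starts s hx.1
        · exact hx.2 rfl
      have TT : T ⊆ hd (s :: L) := fun x hx => hx.1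
      have hw' := hw.conj (mk [s]) hT
      have hb' := hb.conj (mk [s]) hT
      have ha' := ha.conj (mk [s]) hT'
      rw [← hv] at hw' hb' ha'
      have nb' : ‖v * b * star v - 1‖ ≤ c := by
        rw [conj_sub_one vm]; exact (norm_conj_le vm _).trans nb
      have na' : ‖v * a * star v - 1‖ ≤ c := by
        rw [conj_sub_one vm]; exact (norm_conj_le vm _).trans na
      refine ⟨v * w * star v * star (v * b * star v), v * b * star v * R, v * a * star v,
        (hw'.mul hb'.star).mono TT, ?_, ha', hb'.norm_mul hR dT nb' nR, na', ?_⟩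
      · refine (hb'.mono fun x hx => Or.inr (TT hx)).mul (hR.mono ?_)
        rintro x (rfl | rfl)
        · exact Or.inl rfl
        · exact Or.inr hs
      · have e0 : mk (s :: L) = mk [s] * mk L := by rw [mul_mk]; rfl
        have c1 := hw'.comm hR dT
        have b1 := Unitary.star_mul_self_of_mem hb'.mem
        rw [e0, _root_.map_mul, _root_.map_mul, eR, e, ← hv]
        set W := v * w * star v with hW
        set B := v * b * star v with hB
        set A' := v * a * star v with hA
        have e1 : v * (w * (a * b) * star w * X.l (mk L)) =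
            W * (A' * B) * star W * (v * X.l (mk L)) := by
          rw [hW, hA, hB]
          simp only [star_mul, star_star, mul_assoc]
          simp only [← mul_assoc (star v) v, vv, one_mul]
        rw [mul_assoc R, e1, star_mul W, star_star]
        calc R * (W * (A' * B) * star W * (v * X.l (mk L)))
            = (R * W) * (A' * B * star W * (v * X.l (mk L))) := by simp only [mul_assoc]
          _ = W * (star B * B) * R * (A' * B * star W * (v * X.l (mk L))) := by
            rw [b1, mul_one, c1]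
          _ = _ := by simp only [mul_assoc]
  obtain ⟨w, a, b, hw, ha, hb, na, nb, e⟩ := key g.toWord isReduced_toWord
  rw [mk_toWord] at e
  refine ⟨_, mul_mem (mul_mem hw.mem (mul_mem ha.mem hb.mem)) (Unitary.star_mem hw.mem), ?_, e⟩
  rw [conj_sub_one hw.mem]
  refine (norm_conj_le hw.mem _).trans ((norm_mul_sub_one ha.mem).trans (by linarith))

/-- the row and column bound for sums of free generators -/
theorem gen_bound (b : ℕ → A) (c : ℝ) (n : ℕ) (hb : ∀ i, ‖b i‖ ≤ c)
    (hc : ∀ i S, b i * X.p S = X.p S * b i) :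
    ‖∑ i ∈ Finset.range n, b i * X.l (of i)‖ ^ 2 ≤ 4 * (n * c ^ 2) := by
  let F : ℕ → A := fun i => X.p (startsWith (i, true))
  let E : ℕ → A := fun i => X.p {s | of i * s ∈ (startsWith (i, true))ᶜ}
  have hy : ∀ i, ‖b i * X.l (of i)‖ ≤ c := fun i => by
    have h1 := norm_le_one_of (Unitary.star_mul_self_of_mem (X.l_mem (of i)))
    have h2 := norm_mul_le (b i) (X.l (of i))
    have h3 := hb i
    nlinarith [norm_nonneg (b i)]
  have h1 := col_bound F (fun i => b i * X.l (of i)) c n (fun i => X.p_star _)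
    (fun i => X.p_idem _) (fun i j hij => X.p_disj (startsWith.disjoint_iff_ne.2 (by simpa))) hy
  have hE : ∀ i : ℕ, {s | of i * s ∈ (startsWith (i, true))ᶜ} ⊆ startsWith (i, false) := by
    intro i s hs
    by_contra h
    exact hs (startsWith_mk_mul (w := (i, true)) s h)
  have h2 := row_bound E (fun i => b i * X.l (of i)) c n (fun i => X.p_star _)
    (fun i => X.p_idem _) (fun i j hij => X.p_disj (Disjoint.mono (hE i) (hE j)
      (startsWith.disjoint_iff_ne.2 (by simpa)))) hy
  have e : ∑ i ∈ Finset.range n, b i * X.l (of i) =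
      ∑ i ∈ Finset.range n, F i * (b i * X.l (of i)) +
        ∑ i ∈ Finset.range n, b i * X.l (of i) * E i := by
    rw [← Finset.sum_add_distrib]
    refine Finset.sum_congr rfl fun i _ => ?_
    change _ = X.p _ * _ + _ * X.p _
    rw [← mul_assoc, ← hc, mul_assoc (b i) (X.l _), ← X.cov, ← mul_assoc, ← add_mul, ← mul_add,
      X.p_compl, mul_one]
  rw [e]
  have h3 := norm_add_le (∑ i ∈ Finset.range n, F i * (b i * X.l (of i)))
    (∑ i ∈ Finset.range n, b i * X.l (of i) * E i)
  have h4 := norm_nonneg (∑ i ∈ Finset.range n, F i * (b i * X.l (of i)) +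
        ∑ i ∈ Finset.range n, b i * X.l (of i) * E i)
  generalize ‖∑ i ∈ Finset.range n, F i * (b i * X.l (of i)) +
        ∑ i ∈ Finset.range n, b i * X.l (of i) * E i‖ = z at h3 h4
  generalize ‖∑ i ∈ Finset.range n, F i * (b i * X.l (of i))‖ = x at h1 h3
  generalize ‖∑ i ∈ Finset.range n, b i * X.l (of i) * E i‖ = y at h2 h3
  nlinarith [sq_nonneg (x - y)]

/-- the deformed representation of the free group -/
theorem exists_deform (X : Sys (FreeGroup ℕ) A) {b : ℝ} (hb0 : 0 ≤ b) (hb1 : b ≤ 1) :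
    ∃ π : FreeGroup ℕ →* unitary A,
      (∀ g, ‖(π g : A) * star (X.l g) - 1‖ ≤ 8 * b) ∧
      ∀ i, X.p {1} * (π (of i) : A) * X.p {1} = (b : ℂ) • X.p {1} := by
  choose R hR nR eR using fun i : ℕ => X.exists_rot (of_ne_one i) hb0 hb1
  let π : FreeGroup ℕ →* unitary A :=
    lift fun i => ⟨R i * X.l (of i), mul_mem (hR i).mem (X.l_mem _)⟩
  have hπ : ∀ i, (π (of i) : A) = R i * X.l (of i) := fun i => by simp [π]
  refine ⟨π, fun g => ?_, fun i => by rw [hπ, eR]⟩
  obtain ⟨U, -, nU, eU⟩ := close_of_letters (X := X) ((unitary A).subtype.comp π) (c := 4 * b)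
    (by linarith) (by
      rintro ⟨i, _ | _⟩
      · have e : (mk [(i, false)] : FreeGroup ℕ) = (of i)⁻¹ := by
          rw [of, inv_mk]; rfl
        have lm := X.l_mem (of i)⁻¹
        rw [e]
        refine ⟨_, (hR i).star.conj (of i)⁻¹ ?_, ?_, ?_⟩
        · rintro s (rfl | rfl) <;> simp
        · rw [conj_sub_one lm]
          refine (norm_conj_le lm _).trans ?_
          rw [← norm_star, star_sub, star_star, star_one]
          exact nR i
        · rw [mul_assoc, Unitary.star_mul_self_of_mem lm, mul_one, ← X.l_star, ← star_mul, ← hπ]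
          simp [← Unitary.star_eq_inv]
      · exact ⟨R i, hR i, nR i, hπ i⟩) g
  have e : (π g : A) = U * X.l g := eU
  rw [e, mul_assoc, Unitary.mul_star_self_of_mem (X.l_mem g), mul_one]
  linarith

end free

end Vale.Agent.N096
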