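import Vale.Agent.N096.Ex
import Vale.Agent.P082.Bd8.B1

/-!
# P096: the algebra of the example is a factor with a separating trace vector
-/

namespace Vale.Agent.N096

open scoped InnerProductSpace

/-- the regular representation of the free group -/
noncomputable abbrev lam : F →* (L2 F ℂ →L[ℂ] L2 F ℂ) := (reg F).l

theorem lam_lam (g k : F) (x : L2 F ℂ) : lam g (lam k x) = lam (g * k) x := by
  rw [map_mul]; rfl

theorem lam_norm (g : F) : ‖lam g‖ ≤ 1 := norm_rep_le _ (reg F).l_star g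

/-- operators that commute with the fixed algebra -/
noncomputable def zz (a : L2 F ℂ →L[ℂ] L2 F ℂ) (ha : ‖a‖ ≤ 1) (h : F) : HH →L[ℂ] HH :=
  wp (Equiv.mulLeft h) (fun t => lam t⁻¹ * a * lam (h * t)) fun _ => (norm_mul3_le _ _ _).trans
    (mul_le_one₀ (mul_le_one₀ (lam_norm _) (norm_nonneg _) ha) (norm_nonneg _) (lam_norm _))

theorem zz_apply (a : L2 F ℂ →L[ℂ] L2 F ℂ) (ha : ‖a‖ ≤ 1) (h : F) (f : HH) (t : F) :
    zz a ha h f t = lam t⁻¹ (a (lam (h * t) (f (h * t)))) := rfl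

theorem th0_apply (g : F) (f : HH) (t : F) : th0 g f t = lam g (f (t * g)) := rfl

theorem zz_comm (a : L2 F ℂ →L[ℂ] L2 F ℂ) (ha : ‖a‖ ≤ 1) (h : F) {x : HH →L[ℂ] HH}
    (hx : x ∈ MM) : zz a ha h * x = x * zz a ha h :=
  comm_MM hx fun g => op_ext fun f t => by
    change lam g (zz a ha h f (t * g)) = zz a ha h (th0 g f) t
    rw [zz_apply, zz_apply, th0_apply, lam_lam, lam_lam, mul_inv_rev, mul_inv_cancel_left,
      mul_assoc]

open Classical in
/-- a vector placed at one point -/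
noncomputable def sg (t : F) (ξ : L2 F ℂ) : HH := lp.single 2 t ξ

theorem sg_self (t : F) (ξ : L2 F ℂ) : sg t ξ t = ξ := by simp [sg]

theorem sg_ne {s t : F} (h : s ≠ t) (ξ : L2 F ℂ) : sg t ξ s = 0 := by
  simp [sg, lp.single_apply, h]

theorem zz_sg (a : L2 F ℂ →L[ℂ] L2 F ℂ) (ha : ‖a‖ ≤ 1) (h : F) (ξ : L2 F ℂ) :
    zz a ha h (sg 1 ξ) = sg h⁻¹ (lam h (a ξ)) := by
  refine lp.ext (funext fun t => ?_)
  rw [zz_apply]
  by_cases e : t = h⁻¹
  · subst e
    simp [sg_self]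
  · rw [sg_ne e, sg_ne fun k => e (eq_inv_of_mul_eq_one_right k)]
    simp

theorem th0_sg (g : F) (ξ : L2 F ℂ) : th0 g (sg 1 ξ) = sg g⁻¹ (lam g ξ) := by
  refine lp.ext (funext fun t => ?_)
  rw [th0_apply]
  by_cases e : t = g⁻¹
  · subst e
    simp [sg_self]
  · rw [sg_ne e, sg_ne fun k => e (eq_inv_of_mul_eq_one_left k)]
    simp

theorem separating {ξ : L2 F ℂ} (nξ : ‖ξ‖ = 1) {x : HH →L[ℂ] HH} (hx : x ∈ MM)
    (h0 : x (sg 1 ξ) = 0) : x = 0 := by
  classical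
  have key : ∀ (t : F) (η : L2 F ℂ), ‖η‖ ≤ 1 → x (sg t η) = 0 := by
    intro t η hη
    let a : L2 F ℂ →L[ℂ] L2 F ℂ := InnerProductSpace.rankOne ℂ (lam t η) ξ
    have ha : ‖a‖ ≤ 1 := by
      rw [InnerProductSpace.norm_rankOne, nξ, mul_one]
      simpa using (le_of_contr (lam_norm t) η).trans (by simpa)
    have h1 : zz a ha t⁻¹ (sg 1 ξ) = sg t η := by
      rw [zz_sg, inv_inv]
      simp [a, lam_lam, inner_self_eq_norm_sq_to_K, nξ]
    have h2 := congrArg (fun y : HH →L[ℂ] HH => y (sg 1 ξ)) (zz_comm a ha t⁻¹ hx)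
    simp only [mul_apply_eq_comp, h0, map_zero, h1] at h2
    exact h2.symm
  apply lp.ext_continuousLinearMap (by norm_num)
  intro t
  ext1 η
  change x (sg t η) = 0
  by_cases e : η = 0
  · subst e; exact key t 0 (by simp)
  · have hn : ((‖η‖ : ℝ) : ℂ) ≠ 0 := by simpa using e
    have h3 : sg t η = (‖η‖ : ℂ) • sg t ((‖η‖ : ℂ)⁻¹ • η) := by
      rw [sg, sg, ← lp.single_smul, smul_smul, mul_inv_cancel₀ hn, one_smul]
    rw [h3, map_smul, key t _ (by
      rw [norm_smul, norm_inv, Complex.norm_real, norm_norm, inv_mul_cancel₀ (by simpa using e)]),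
      smul_zero]

theorem th0_star (g : F) : star (th0 g) = th0 g⁻¹ := th_star _ _ g

theorem inner_star {H : Type} [NormedAddCommGroup H] [InnerProductSpace ℂ H] [CompleteSpace H]
    (x : H →L[ℂ] H) (v w : H) : ⟪star x v, w⟫_ℂ = ⟪v, x w⟫_ℂ := by
  rw [ContinuousLinearMap.star_eq_adjoint, ContinuousLinearMap.adjoint_inner_left]

theorem trace_gen (ξ : L2 F ℂ) (g : F) {x : HH →L[ℂ] HH} (hx : x ∈ MM) :
    ⟪sg 1 ξ, (x * th0 g) (sg 1 ξ)⟫_ℂ = ⟪sg 1 ξ, (th0 g * x) (sg 1 ξ)⟫_ℂ := by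
  have o : ‖(1 : L2 F ℂ →L[ℂ] L2 F ℂ)‖ ≤ 1 := ContinuousLinearMap.norm_id_le
  have e : ∀ g, th0 g (sg 1 ξ) = zz 1 o g (sg 1 ξ) := fun g => by rw [th0_sg, zz_sg]; rfl
  have s : star (zz 1 o g) = zz 1 o g⁻¹ := by
    refine (star_wp _ _ _).trans (op_ext fun f t => ?_)
    change star (lam (g⁻¹ * t)⁻¹ * 1 * lam (g * (g⁻¹ * t))) (f (g⁻¹ * t)) = _
    rw [zz_apply, mul_one, star_mul, (reg F).l_star, (reg F).l_star, inv_inv, mul_inv_cancel_left]
    rfl
  rw [mul_apply_eq_comp, mul_apply_eq_comp, e, ← mul_apply_eq_comp, ← zz_comm 1 o g hx,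
    mul_apply_eq_comp, ← inner_star, s, ← e, ← th0_star, inner_star]

/-- approximation on two vectors by an algebra that contains the generators -/
theorem approx (A0 : StarSubalgebra ℂ (HH →L[ℂ] HH)) (h : ∀ g, th0 g ∈ A0) {y : HH →L[ℂ] HH}
    (hy : y ∈ MM) (v w : HH) {ε : ℝ} (hε : 0 < ε) :
    ∃ a ∈ A0, ‖y v - a v‖ < ε ∧ ‖y w - a w‖ < ε := by
  obtain ⟨a, ha, n⟩ := Vale.Agent.P082.exists_approx (ι := Bool) A0 (x := y)
    (fun T hT => (comm_MM hy fun g => hT _ (h g)).symm)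
    (lp.single 2 true v + lp.single 2 false w) hε
  refine ⟨a, ha, ?_, ?_⟩
  · simpa using (lp.norm_apply_le_norm (by norm_num) _ true).trans_lt n
  · simpa using (lp.norm_apply_le_norm (by norm_num) _ false).trans_lt n

theorem tracial (ξ : L2 F ℂ) {x y : HH →L[ℂ] HH} (hx : x ∈ MM) (hy : y ∈ MM) :
    ⟪sg 1 ξ, (x * y) (sg 1 ξ)⟫_ℂ = ⟪sg 1 ξ, (y * x) (sg 1 ξ)⟫_ℂ := by
  set Ω := sg 1 ξ
  let A0 : StarSubalgebra ℂ (HH →L[ℂ] HH) :=
    { carrier := {y | y ∈ MM ∧ ∀ x ∈ MM, ⟪Ω, (x * y) Ω⟫_ℂ = ⟪Ω, (y * x) Ω⟫_ℂ}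
      mul_mem' := fun {a b} ha hb => ⟨mul_mem ha.1 hb.1, fun x hx => by
        rw [← mul_assoc, hb.2 _ (mul_mem hx ha.1), ← mul_assoc, ha.2 _ (mul_mem hb.1 hx),
          mul_assoc]⟩
      add_mem' := fun {a b} ha hb => ⟨add_mem ha.1 hb.1, fun x hx => by
        rw [mul_add, add_mul, add_apply, add_apply, inner_add_right, inner_add_right, ha.2 x hx,
          hb.2 x hx]⟩
      algebraMap_mem' := fun c => ⟨MM.toStarSubalgebra.algebraMap_mem c, fun x _ => by
        rw [Algebra.commutes]⟩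
      star_mem' := fun {a} ha => ⟨star_mem ha.1, fun x hx => by
        have h := congrArg (starRingEnd ℂ) (ha.2 _ (star_mem hx))
        rw [inner_conj_symm, inner_conj_symm, ← star_star (star x * a), ← star_star (a * star x),
          inner_star, inner_star, star_mul, star_mul, star_star] at h
        exact h.symm⟩ }
  refine eq_of_forall_dist_le fun ε hε => ?_
  have hc : 0 < ‖star x Ω‖ + ‖Ω‖ + 1 := by positivity
  obtain ⟨a, ha, n1, n2⟩ := approx A0 (fun g => ⟨th0_mem g, fun x hx => trace_gen ξ g hx⟩) hy Ω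
    (x Ω) (div_pos hε hc)
  have e : ⟪Ω, (x * y) Ω⟫_ℂ - ⟪Ω, (y * x) Ω⟫_ℂ =
      ⟪star x Ω, y Ω - a Ω⟫_ℂ - ⟪Ω, y (x Ω) - a (x Ω)⟫_ℂ := by
    have := ha.2 x hx
    simp only [mul_apply_eq_comp] at this
    simp only [mul_apply_eq_comp, inner_sub_right, inner_star, this]
    ring
  rw [dist_eq_norm, e]
  have b1 := norm_inner_le_norm (𝕜 := ℂ) (star x Ω) (y Ω - a Ω)
  have b2 := norm_inner_le_norm (𝕜 := ℂ) Ω (y (x Ω) - a (x Ω))
  have b3 := mul_le_mul_of_nonneg_left n1.le (norm_nonneg (star x Ω))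
  have b4 := mul_le_mul_of_nonneg_left n2.le (norm_nonneg Ω)
  have b5 : (‖star x Ω‖ + ‖Ω‖ + 1) * (ε / (‖star x Ω‖ + ‖Ω‖ + 1)) = ε := mul_div_cancel₀ _ hc.ne'
  have b6 := div_pos hε hc
  refine (norm_sub_le _ _).trans ?_
  nlinarith

theorem th0_mul (g h : F) : th0 (g * h) = th0 g * th0 h :=
  op_ext fun f t => by
    change _ = lam g (th0 h f (t * g))
    rw [th0_apply, th0_apply, lam_lam, mul_assoc]

theorem th0_one : th0 1 = 1 := op_ext fun f t => by simp [th0_apply]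

/-- nontrivial conjugacy classes of the free group are infinite -/
theorem icc {g : F} (hg : g ≠ 1) {S : Set F} (hS : ∀ h, h * g * h⁻¹ ∈ S) : S.Infinite := by
  obtain ⟨n, hn⟩ : ∃ n : ℕ, ∀ a ∈ g.toWord, a.1 < n := by
    obtain ⟨n, hn⟩ := (g.toWord.toFinset.image Prod.fst).bddAbove
    exact ⟨n + 1, fun a ha => Nat.lt_succ_of_le (hn (by
      simp only [Finset.coe_image]; exact ⟨a, by simpa using ha, rfl⟩))⟩
  have key : ∀ i, FreeGroup.of (n + i) * g * (FreeGroup.of (n + i))⁻¹ ∈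
      FreeGroup.startsWith (n + i, true) := by
    intro i
    rw [mul_assoc]
    refine FreeGroup.startsWith_mk_mul (w := (n + i, true)) _ fun h => ?_
    have e : g * (FreeGroup.of (n + i))⁻¹ = FreeGroup.mk (g.toWord ++ [(n + i, false)]) := by
      rw [← FreeGroup.mul_mk, FreeGroup.mk_toWord, FreeGroup.of, FreeGroup.inv_mk]; rfl
    have r : FreeGroup.IsReduced (g.toWord ++ [(n + i, false)]) := by
      refine List.isChain_append.2 ⟨FreeGroup.isReduced_toWord, List.isChain_singleton _, ?_⟩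
      intro x hx y hy k
      have := hn x (List.mem_of_getLast? hx)
      simp only [List.head?_cons, Option.mem_def, Option.some.injEq] at hy
      subst hy
      simp only at k
      omega
    rw [e, FreeGroup.startsWith, Set.mem_ofPred_eq, FreeGroup.toWord_mk, r.reduce_eq] at h
    cases hL : g.toWord with
    | nil => exact hg (FreeGroup.toWord_eq_nil_iff.1 hL)
    | cons a L =>
      have := hn a (by simp [hL])
      rw [hL] at h
      simp only [List.cons_append, List.getElem?_cons_zero, Option.some.injEq] at h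
      rw [h] at this
      simp only at this
      omega
  refine Set.infinite_of_injective_forall_mem
    (f := fun i : ℕ => FreeGroup.of (n + i) * g * (FreeGroup.of (n + i))⁻¹) (fun i j e => ?_)
    fun i => hS _
  by_contra ne
  have d : Disjoint (FreeGroup.startsWith (n + i, true)) (FreeGroup.startsWith (n + j, true)) :=
    FreeGroup.startsWith.disjoint_iff_ne.2 (by simpa using ne)
  exact d.notMem_of_mem_left (key i) (by simp only at e; rw [e]; exact key j)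

theorem coeff_zero {ξ : L2 F ℂ} (nξ : ‖ξ‖ = 1) {z : HH →L[ℂ] HH} (hz : z ∈ MM)
    (hc : ∀ g, th0 g * z = z * th0 g) {g : F} (hg : g ≠ 1) :
    ⟪sg 1 ξ, (th0 g * z) (sg 1 ξ)⟫_ℂ = 0 := by
  classical
  set c := ⟪sg 1 ξ, (th0 g * z) (sg 1 ξ)⟫_ℂ with hc0
  by_contra h0
  have hp : 0 < ‖c‖ := norm_pos_iff.2 h0
  have h1 : ∀ h, ‖c‖ ≤ ‖z (sg 1 ξ) (h * g * h⁻¹)‖ := by
    intro h
    have e : c = ⟪sg 1 ξ, (th0 (h * g * h⁻¹) * z) (sg 1 ξ)⟫_ℂ := by
      rw [th0_mul, mul_assoc, hc, ← mul_assoc, trace_gen ξ _ (mul_mem (th0_mem _) hz), ← mul_assoc,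
        ← th0_mul, inv_mul_cancel_left]
    rw [e, mul_apply_eq_comp, sg, lp.inner_single_left, th0_apply, one_mul]
    refine (norm_inner_le_norm _ _).trans ?_
    rw [nξ, one_mul]
    exact (le_of_contr (lam_norm _) _).trans (one_mul _).le
  have h2 := ((lp.memℓp (z (sg 1 ξ))).summable (by norm_num)).tendsto_cofinite_zero
  have h3 := h2.eventually (gt_mem_nhds (Real.rpow_pos_of_pos hp (2 : ENNReal).toReal))
  refine icc hg (S := {t | ¬ ‖z (sg 1 ξ) t‖ ^ (2 : ENNReal).toReal < ‖c‖ ^ (2 : ENNReal).toReal})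
    (fun h => not_lt.2 (Real.rpow_le_rpow hp.le (h1 h) (by norm_num))) h3

theorem factor {z : HH →L[ℂ] HH} (hz : z ∈ MM) (hc : ∀ x ∈ MM, x * z = z * x) :
    ∃ c : ℂ, z = c • 1 := by
  obtain ⟨ξ, nξ, -⟩ := exists_fixed F
  set Ω := sg 1 ξ with hΩ
  have nΩ : ‖Ω‖ = 1 := by rw [hΩ, sg, lp.norm_single (by norm_num), nξ]
  let V := Submodule.span ℂ (Set.range th0)
  have gV : ∀ g, th0 g ∈ V := fun g => Submodule.subset_span ⟨g, rfl⟩
  let A0 : StarSubalgebra ℂ (HH →L[ℂ] HH) :=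
    { carrier := V
      mul_mem' := fun {a b} ha hb => by
        have := Submodule.mul_mem_mul ha hb
        rw [Submodule.span_mul_span] at this
        refine Submodule.span_mono ?_ this
        rintro _ ⟨_, ⟨g, rfl⟩, _, ⟨h, rfl⟩, rfl⟩
        exact ⟨g * h, th0_mul g h⟩
      add_mem' := V.add_mem
      algebraMap_mem' := fun c => by
        rw [Algebra.algebraMap_eq_smul_one, ← th0_one]; exact V.smul_mem c (gV 1)
      star_mem' := fun {a} ha => by
        induction ha using Submodule.span_induction with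
        | mem x hx => obtain ⟨g, rfl⟩ := hx; rw [th0_star]; exact gV _
        | zero => rw [star_zero]; exact V.zero_mem
        | add x y _ _ hx hy => rw [star_add]; exact V.add_mem hx hy
        | smul c x _ hx => rw [star_smul]; exact V.smul_mem _ hx }
  set y := z - ⟪Ω, z Ω⟫_ℂ • (1 : HH →L[ℂ] HH) with hy
  have yM : y ∈ MM := sub_mem hz (Vale.Agent.P096.H308.smul_mem_vn MM _ (one_mem _))
  have yc : ∀ g, th0 g * y = y * th0 g := fun g => by
    rw [hy, mul_sub, sub_mul, hc _ (th0_mem g), mul_smul_comm, smul_mul_assoc, mul_one, one_mul]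
  have h1 : ∀ a ∈ V, ⟪a Ω, y Ω⟫_ℂ = 0 := by
    intro a ha
    induction ha using Submodule.span_induction with
    | mem x hx =>
      obtain ⟨g, rfl⟩ := hx
      rw [← inv_inv g, ← th0_star, inner_star]
      by_cases e : g⁻¹ = 1
      · rw [e, th0_one, hy]
        simp [inner_sub_right, inner_smul_right, inner_self_eq_norm_sq_to_K, nΩ]
      · exact coeff_zero nξ yM yc e
    | zero => simp
    | add x y _ _ hx hy => rw [add_apply, inner_add_left, hx, hy, add_zero]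
    | smul c x _ hx => rw [smul_apply, inner_smul_left, hx, mul_zero]
  refine ⟨_, sub_eq_zero.1 (separating nξ yM ?_)⟩
  by_contra h0
  have hp : 0 < ‖y Ω‖ := norm_pos_iff.2 h0
  obtain ⟨a, ha, n1, -⟩ := approx A0 gV yM Ω Ω hp
  have h2 := norm_inner_le_norm (𝕜 := ℂ) (y Ω - a Ω) (y Ω)
  rw [inner_sub_left, h1 a ha, sub_zero, inner_self_eq_norm_sq_to_K, norm_pow] at h2
  simp only [RCLike.norm_ofReal, abs_norm] at h2
  nlinarith

theorem exists_unit : ∃ ξ : L2 F ℂ, ‖ξ‖ = 1 ∧ ‖sg 1 ξ‖ = 1 := by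
  obtain ⟨ξ, nξ, -⟩ := exists_fixed F
  exact ⟨ξ, nξ, by rw [sg, lp.norm_single (by norm_num), nξ]⟩

theorem exists_indep : ∃ v : ℕ → HH →L[ℂ] HH, (∀ n, v n ∈ MM) ∧ LinearIndependent ℂ v := by
  classical
  obtain ⟨ξ, nξ, -⟩ := exists_unit
  let ev : (HH →L[ℂ] HH) →ₗ[ℂ] HH :=
    { toFun := fun x => x (sg 1 ξ)
      map_add' := fun _ _ => rfl
      map_smul' := fun _ _ => rfl }
  have h1 : LinearIndependent ℂ (ev ∘ th0) := by
    refine linearIndependent_of_ne_zero_of_inner_eq_zero (fun g h0 => ?_) fun g k ne => ?_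
    · have h2 : th0 g⁻¹ (th0 g (sg 1 ξ)) = sg 1 ξ := by
        rw [← mul_apply_eq_comp, ← th0_mul, inv_mul_cancel, th0_one]; rfl
      have h3 : th0 g (sg 1 ξ) = 0 := h0
      rw [h3, map_zero] at h2
      have h4 := sg_self 1 ξ
      rw [← h2] at h4
      rw [← h4] at nξ
      simp at nξ
    · change ⟪th0 g (sg 1 ξ), th0 k (sg 1 ξ)⟫_ℂ = 0
      rw [th0_sg, th0_sg, sg, lp.inner_single_left, sg_ne (by simpa using ne), inner_zero_right]
  exact ⟨th0 ∘ FreeGroup.of, fun n => th0_mem _, (h1.of_comp ev).comp _ FreeGroup.of_injective⟩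

end Vale.Agent.N096
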